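import Mathlib
import Vale.Agent.P252.Defs
import Vale.Agent.P252.Final

set_option autoImplicit false

open scoped ContDiff

namespace Vale.Agent.Results.P252.Main

/-- For every dimension `n ≥ 10` there is a function `u` on all of `ℝⁿ`, of class `C^∞`, with
positive definite Hessian at every point, that solves the affine maximal equation (AM) on `ℝⁿ`
and is not a quadratic polynomial. So the affine Bernstein property fails in every dimension
`n ≥ 10`, already for entire graphs. -/
theorem result (n : ℕ) (hn : 10 ≤ n) :
    ∃ u : (Fin n → ℝ) → ℝ, ContDiff ℝ ∞ u ∧ (∀ x : Fin n → ℝ, (P252.hess u x).PosDef) ∧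
      P252.SolvesAM u ∧ ¬ P252.IsQuadratic u :=
  _root_.P252.counterexample n hn

end Vale.Agent.Results.P252.Main
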